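import Vale.Agent.P181.NS.Defs

set_option autoImplicit false

/-!
# P181, NS: **[G3]** the core `(∑ x_j · ∂_z) ∏ (x_j · ∂_z)` is injective
-/

open MvPolynomial

namespace Vale.Agent.P181.NSG3

open Vale.Agent.P181.SZR3
open Vale.Agent.P181.DG4a
open Vale.Agent.P181.NS (opL InjStmt)

section

variable {m : ℕ} {τ : Type} [DecidableEq τ]

lemma opL_nil (z : τ) (g : MvPolynomial (Fin m × τ) ℂ) : opL z [] g = g := rfl

lemma opL_cons (z x : τ) (l : List τ) (g : MvPolynomial (Fin m × τ) ℂ) :
    opL z (x :: l) g = colD x z (opL z l g) := rfl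

lemma opL_append (z : τ) (l l' : List τ) (g : MvPolynomial (Fin m × τ) ℂ) :
    opL z (l ++ l') g = opL z l (opL z l' g) := by
  induction l with
  | nil => rfl
  | cons x l ih => rw [List.cons_append, opL_cons, opL_cons, ih]

/-- `opL` as a linear map. -/
noncomputable def opM (z : τ) : List τ →
    (MvPolynomial (Fin m × τ) ℂ →ₗ[ℂ] MvPolynomial (Fin m × τ) ℂ)
  | [] => LinearMap.id
  | x :: l => (colD x z : Derivation ℂ (MvPolynomial (Fin m × τ) ℂ)
      (MvPolynomial (Fin m × τ) ℂ)).toLinearMap ∘ₗ opM z l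

lemma opM_apply (z : τ) (l : List τ) (g : MvPolynomial (Fin m × τ) ℂ) :
    opM z l g = opL z l g := by
  induction l with
  | nil => rfl
  | cons x l ih =>
    rw [opL_cons, ← ih]
    rfl

/-- The operators `x · ∂_z` commute. -/
lemma colD_comm {x y z : τ} (hx : x ≠ z) (hy : y ≠ z) (f : MvPolynomial (Fin m × τ) ℂ) :
    colD x z (colD y z f) = colD y z (colD x z f) := by
  have h : ⁅(colD x z : Derivation ℂ (MvPolynomial (Fin m × τ) ℂ) (MvPolynomial (Fin m × τ) ℂ)),
      (colD y z : Derivation ℂ (MvPolynomial (Fin m × τ) ℂ) (MvPolynomial (Fin m × τ) ℂ))⁆ =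
      0 := by
    apply derivation_ext
    rintro ⟨k, l⟩
    rw [Derivation.commutator_apply, colD_X, colD_X, Derivation.zero_apply]
    by_cases hl : l = z <;> simp [hl, colD_X, hx, hy]
  have h1 := congrArg (fun D => D f) h
  simp only [Derivation.commutator_apply, Derivation.zero_apply] at h1
  exact sub_eq_zero.1 h1

lemma opL_perm {z : τ} {l l' : List τ} (h : l.Perm l') (hz : z ∉ l)
    (g : MvPolynomial (Fin m × τ) ℂ) : opL z l g = opL z l' g := by
  induction h with
  | nil => rfl
  | cons x _ ih => rw [opL_cons, opL_cons, ih fun h' => hz (List.mem_cons_of_mem _ h')]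
  | swap x y l =>
    rw [opL_cons, opL_cons, opL_cons, opL_cons, colD_comm]
    · rintro rfl
      exact hz (by simp)
    · rintro rfl
      exact hz (by simp)
  | trans h1 h2 ih1 ih2 => rw [ih1 hz, ih2 fun h' => hz (h1.mem_iff.2 h')]

/-- The number of occurrences. -/
def cnt (l : List τ) (x : τ) : ℕ := l.count x

lemma cnt_nil (x : τ) : cnt [] x = 0 := List.count_nil

lemma cnt_cons (l : List τ) (y x : τ) : cnt (y :: l) x = cnt l x + if y = x then 1 else 0 := by
  rw [cnt, cnt, List.count_cons]
  by_cases h : y = x <;> simp [h]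

lemma cnt_zero {l : List τ} {x : τ} (h : x ∉ l) : cnt l x = 0 := List.count_eq_zero_of_not_mem h

lemma cnt_one {l : List τ} {x : τ} (hl : l.Nodup) (h : x ∈ l) : cnt l x = 1 :=
  List.count_eq_one_of_mem hl h

variable [Fintype τ]

/-- The degrees of the monomials of `opL`. -/
lemma exists_coeff_opL (z : τ) (l : List τ) (f : MvPolynomial (Fin m × τ) ℂ)
    (v : Fin m × τ →₀ ℕ) (h : coeff v (opL z l f) ≠ 0) :
    ∃ u, coeff u f ≠ 0 ∧
      ∀ x, cdeg v x + (if z = x then l.length else 0) = cdeg u x + cnt l x := by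
  induction l generalizing v with
  | nil => exact ⟨v, h, fun x => by simp [cnt_nil]⟩
  | cons y l ih =>
    rw [opL_cons] at h
    obtain ⟨i, w, rfl, hw⟩ := exists_coeff_colD y z _ v h
    obtain ⟨u, hu, hux⟩ := ih _ hw
    refine ⟨u, hu, fun x => ?_⟩
    have h1 := hux x
    rw [cdeg_add, Pi.add_apply, cdeg_single] at h1 ⊢
    rw [List.length_cons, cnt_cons]
    by_cases hy : y = x <;> by_cases hz : z = x <;> simp [hy, hz] at h1 ⊢ <;> omega

/-- The degrees after `opL`. -/
def dl (z : τ) (l : List τ) (d : τ → ℕ) (x : τ) : ℕ :=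
  d x + cnt l x - (if z = x then l.length else 0)

lemma colH_opL {z : τ} {l : List τ} {d : τ → ℕ} {f : MvPolynomial (Fin m × τ) ℂ}
    (hf : ColH d f) : ColH (dl z l d) (opL z l f) := by
  intro v hv x
  obtain ⟨u, hu, hux⟩ := exists_coeff_opL z l f v hv
  have h1 := hux x
  have h2 : cdeg u x = d x := hf u hu x
  change cdeg v x = _
  unfold dl
  omega

lemma opL_inj {z : τ} (l : List τ) : l.Nodup → z ∉ l → ∀ (d : τ → ℕ)
    (f : MvPolynomial (Fin m × τ) ℂ), ColH d f → (∀ x ∈ l, d x + l.length ≤ d z) →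
    opL z l f = 0 → f = 0 := by
  induction l with
  | nil => exact fun _ _ _ _ _ _ h0 => h0
  | cons x l ih =>
    intro hn hz d f hf hd h0
    rw [List.nodup_cons] at hn
    have hxz : x ≠ z := by
      rintro rfl
      exact hz (by simp)
    have hzl : z ∉ l := fun h => hz (List.mem_cons_of_mem _ h)
    refine ih hn.2 hzl d f hf (fun y hy => ?_) ?_
    · have h1 := hd y (List.mem_cons_of_mem _ hy)
      rw [List.length_cons] at h1
      omega
    · have h1 := hd x List.mem_cons_self
      rw [List.length_cons] at h1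
      refine itD_inj hxz (dl z l d x) 1 (dl z l d) _ (colH_opL hf) rfl ?_ ?_
      · simp only [dl, cnt_zero hn.1, cnt_zero hzl, if_neg hxz.symm, if_true]
        omega
      · rw [itD_succ, itD_zero]
        exact h0

end

theorem g3 : InjStmt := by
  classical
  intro m c g hc hg h0
  by_contra hg0
  have hne : g.support.Nonempty := support_nonempty.2 hg0
  obtain ⟨j, hj⟩ : ∃ j : Fin c, (∀ v ∈ g.support, ∀ i : Fin c, cdeg v (Sum.inr i) = 0) ∨
      ∃ v ∈ g.support, 1 ≤ cdeg v (Sum.inr j) := by
    by_cases h : ∀ v ∈ g.support, ∀ i : Fin c, cdeg v (Sum.inr i) = 0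
    · exact ⟨⟨0, hc⟩, Or.inl h⟩
    · push Not at h
      obtain ⟨v, hv, i, hi⟩ := h
      exact ⟨i, Or.inr ⟨v, hv, Nat.one_le_iff_ne_zero.2 hi⟩⟩
  obtain ⟨v1, hv1, hmax⟩ := g.support.exists_max_image (fun v => cdeg v (Sum.inr j)) hne
  have hpos : 1 ≤ cdeg v1 (Sum.inr j) ∨ ∀ i : Fin c, cdeg v1 (Sum.inr i) = 0 := by
    rcases hj with hj | ⟨v, hv, hv'⟩
    · exact Or.inr (hj v1 hv1)
    · exact Or.inl (hv'.trans (hmax v hv))
  obtain ⟨hdz, hds⟩ := hg v1 (mem_support_iff.1 hv1)
  change cdeg v1 (Sum.inl ()) = c + 1 at hdz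
  change ∑ i : Fin c, cdeg v1 (Sum.inr i) + 1 ≤ c at hds
  generalize hd : cdeg v1 = d at *
  set z : Unit ⊕ Fin c := Sum.inl () with hz
  set L : List (Unit ⊕ Fin c) := (List.finRange c).map Sum.inr with hL
  have hLz : z ∉ L := by
    rw [hL, List.mem_map]
    rintro ⟨i, -, hi⟩
    exact absurd hi (by simp [hz])
  have hLlen : L.length = c := by rw [hL, List.length_map, List.length_finRange]
  have hLn : L.Nodup := (List.nodup_finRange c).map Sum.inr_injective
  have hLc : ∀ i : Fin c, cnt L (Sum.inr i) = 1 := fun i =>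
    cnt_one hLn (by
      rw [hL, List.mem_map]
      exact ⟨i, List.mem_finRange i, rfl⟩)
  -- the component
  set d' : Unit ⊕ Fin c → ℕ := dl z (Sum.inr j :: L) d with hd'
  have hcomp : ∀ k : Fin c, cp d' (opL z (Sum.inr k :: L) g) =
      if k = j then opL z (Sum.inr j :: L) (cp d g) else 0 := by
    intro k
    by_cases hk : k = j
    · rw [if_pos hk, hk, ← opM_apply, ← opM_apply]
      refine cp_comm (opM z (Sum.inr j :: L)) d d' (fun f v hv => ?_) g
      rw [opM_apply] at hv
      obtain ⟨u, hu, hux⟩ := exists_coeff_opL z _ f v hv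
      refine ⟨u, hu, ?_, ?_⟩
      · intro h
        funext x
        have h1 := hux x
        rw [h, hd', dl] at h1
        by_cases hx : z = x
        · subst hx
          simp only [if_true, List.length_cons, hLlen] at h1
          omega
        · simp only [if_neg hx] at h1
          omega
      · intro h
        funext x
        have h1 := hux x
        rw [h] at h1
        rw [hd', dl]
        omega
    · rw [if_neg hk]
      apply MvPolynomial.ext
      intro v
      rw [coeff_zero]
      by_contra hv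
      obtain ⟨hv1', hv2⟩ := cdeg_of_coeff_cp hv
      obtain ⟨u, hu, hux⟩ := exists_coeff_opL z _ g v hv2
      have h1 := hux (Sum.inr j)
      have h2 := hmax u (mem_support_iff.2 hu)
      rw [hv1', hd', dl] at h1
      have h3 : z ≠ Sum.inr j := by simp [hz]
      have h4 : (Sum.inr k : Unit ⊕ Fin c) ≠ Sum.inr j := fun h => hk (Sum.inr_injective h)
      simp only [if_neg h3, cnt_cons, hLc, if_true, if_neg h4] at h1
      have h2' : cdeg u (Sum.inr j) ≤ d (Sum.inr j) := h2
      omega
  have hsum : opL z (Sum.inr j :: L) (cp d g) = 0 := by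
    have h1 := congrArg (cp d') h0
    rw [map_sum, map_zero] at h1
    have h2 : ∀ k ∈ (Finset.univ : Finset (Fin c)), cp d' (colD (Sum.inr k) (Sum.inl ())
        (opL (Sum.inl ()) ((List.finRange c).map Sum.inr) g)) =
        if k = j then opL z (Sum.inr j :: L) (cp d g) else 0 := fun k _ => hcomp k
    rw [Finset.sum_congr rfl h2, Finset.sum_ite_eq' Finset.univ j] at h1
    simpa using h1
  -- the order of the operators
  set E : List (Fin c) := (List.finRange c).erase j with hE
  have hEn : E.Nodup := (List.nodup_finRange c).erase j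
  have hEj : j ∉ E := (List.nodup_finRange c).not_mem_erase
  have hElen : E.length + 1 = c := by
    have := List.length_erase_of_mem (List.mem_finRange j)
    rw [List.length_finRange] at this
    rw [hE, this]
    omega
  set A : List (Fin c) := E.filter fun i => decide (d (Sum.inr i) = 0) with hA
  set B : List (Fin c) := E.filter fun i => !decide (d (Sum.inr i) = 0) with hB
  have hAB : (A ++ B).Perm E := List.filter_append_perm _ _
  have hperm : (Sum.inr j :: L).Perm
      (A.map Sum.inr ++ (B.map Sum.inr ++ [Sum.inr j, Sum.inr j])) := by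
    have h1 : L.Perm ((j :: E).map Sum.inr) :=
      (List.perm_cons_erase (List.mem_finRange j)).map Sum.inr
    have h2 : (E.map (Sum.inr : Fin c → Unit ⊕ Fin c)).Perm (A.map Sum.inr ++ B.map Sum.inr) := by
      rw [← List.map_append]
      exact hAB.symm.map Sum.inr
    have h3 : (Sum.inr j :: L).Perm
        ([Sum.inr j, Sum.inr j] ++ E.map (Sum.inr : Fin c → Unit ⊕ Fin c)) :=
      List.Perm.cons _ h1
    refine h3.trans ((List.perm_append_comm).trans ?_)
    rw [← List.append_assoc]
    exact h2.append_right _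
  have hz2 : z ∉ (Sum.inr j :: L) := by
    rw [List.mem_cons]
    rintro (h | h)
    · exact absurd h (by simp [hz])
    · exact hLz h
  rw [opL_perm hperm hz2, opL_append, opL_append] at hsum
  have hzmap : ∀ l : List (Fin c), z ∉ l.map (Sum.inr : Fin c → Unit ⊕ Fin c) := by
    intro l h
    obtain ⟨i, -, hi⟩ := List.mem_map.1 h
    exact absurd hi (by simp [hz])
  have hABlen : A.length + B.length = E.length := by
    rw [← List.length_append]
    exact hAB.length_eq
  have hh : ColH d (cp d g) := colH_cp d g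
  -- degrees after the two steps in the column `j`
  have hd1 : ColH (dl z [Sum.inr j, Sum.inr j] d) (opL z [Sum.inr j, Sum.inr j] (cp d g)) :=
    colH_opL hh
  have hd1z : dl z [Sum.inr j, Sum.inr j] d z = c - 1 := by
    have h3 : (Sum.inr j : Unit ⊕ Fin c) ≠ z := by simp [hz]
    simp [dl, cnt_cons, cnt_nil, h3, hdz]
  have hd1i : ∀ i : Fin c, i ≠ j → dl z [Sum.inr j, Sum.inr j] d (Sum.inr i) = d (Sum.inr i) := by
    intro i hi
    have h3 : z ≠ Sum.inr i := by simp [hz]
    have h4 : (Sum.inr j : Unit ⊕ Fin c) ≠ Sum.inr i := fun h => hi (Sum.inr_injective h).symm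
    simp [dl, cnt_cons, cnt_nil, h3, h4]
  have hd2 : ColH (dl z (B.map Sum.inr) (dl z [Sum.inr j, Sum.inr j] d))
      (opL z (B.map Sum.inr) (opL z [Sum.inr j, Sum.inr j] (cp d g))) := colH_opL hd1
  have hmemE : ∀ i ∈ E, i ≠ j := fun i hi h => hEj (h ▸ hi)
  have hmemA : ∀ i ∈ A, i ∈ E ∧ d (Sum.inr i) = 0 := fun i hi => by
    rw [hA, List.mem_filter] at hi
    simpa using hi
  have hmemB : ∀ i ∈ B, i ∈ E ∧ d (Sum.inr i) ≠ 0 := fun i hi => by
    rw [hB, List.mem_filter] at hi
    simpa using hi
  -- strip `A`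
  have s1 : opL z (B.map Sum.inr) (opL z [Sum.inr j, Sum.inr j] (cp d g)) = 0 := by
    refine opL_inj (A.map Sum.inr) ((hEn.filter _).map Sum.inr_injective) (hzmap A) _ _ hd2 ?_
      hsum
    intro x hx
    obtain ⟨i, hi, rfl⟩ := List.mem_map.1 hx
    obtain ⟨hiE, hi0⟩ := hmemA i hi
    have h3 : z ≠ Sum.inr i := by simp [hz]
    have h5 : cnt (B.map (Sum.inr : Fin c → Unit ⊕ Fin c)) (Sum.inr i) = 0 := by
      apply cnt_zero
      intro h
      obtain ⟨i', hi', h'⟩ := List.mem_map.1 h
      rw [Sum.inr_injective h'] at hi'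
      exact (hmemB i hi').2 hi0
    have h6 : dl z (B.map Sum.inr) (dl z [Sum.inr j, Sum.inr j] d) (Sum.inr i) = 0 := by
      rw [dl, if_neg h3, h5, hd1i i (hmemE i hiE), hi0]
    have h7 : dl z (B.map Sum.inr) (dl z [Sum.inr j, Sum.inr j] d) z = c - 1 - B.length := by
      rw [dl, if_pos rfl, hd1z, cnt_zero (hzmap B), List.length_map, Nat.add_zero]
    rw [h6, h7, List.length_map]
    omega
  -- strip `B`
  have s2 : opL z [Sum.inr j, Sum.inr j] (cp d g) = 0 := by
    refine opL_inj (B.map Sum.inr) ((hEn.filter _).map Sum.inr_injective) (hzmap B) _ _ hd1 ?_ s1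
    intro x hx
    obtain ⟨i, hi, rfl⟩ := List.mem_map.1 hx
    obtain ⟨hiE, hi0⟩ := hmemB i hi
    rw [hd1i i (hmemE i hiE), hd1z, List.length_map]
    -- the degrees
    have hM : 1 ≤ d (Sum.inr j) := by
      rcases hpos with h | h
      · exact h
      · exact absurd (h i) hi0
    have hBn : B.Nodup := hEn.filter _
    have h8 : ∑ k ∈ insert j B.toFinset, d (Sum.inr k) ≤ ∑ k : Fin c, d (Sum.inr k) :=
      Finset.sum_le_univ_sum_of_nonneg fun _ => Nat.zero_le _
    have hjB : j ∉ B.toFinset := fun h => hmemE j (hmemB j (List.mem_toFinset.1 h)).1 rfl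
    rw [Finset.sum_insert hjB] at h8
    have h9 : d (Sum.inr i) + (B.length - 1) ≤ ∑ k ∈ B.toFinset, d (Sum.inr k) := by
      have hiB : i ∈ B.toFinset := List.mem_toFinset.2 hi
      rw [← Finset.add_sum_erase _ _ hiB]
      apply Nat.add_le_add_left
      have h10 : (B.toFinset.erase i).card = B.length - 1 := by
        rw [Finset.card_erase_of_mem hiB, List.toFinset_card_of_nodup hBn]
      rw [← h10, Finset.card_eq_sum_ones]
      refine Finset.sum_le_sum fun k hk => Nat.one_le_iff_ne_zero.2 ?_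
      exact (hmemB k (List.mem_toFinset.1 (Finset.mem_of_mem_erase hk))).2
    have hBpos : 1 ≤ B.length := List.length_pos_of_mem hi
    omega
  -- strip the two steps in the column `j`
  have s3 : cp d g = 0 := by
    have hjz : (Sum.inr j : Unit ⊕ Fin c) ≠ z := by simp [hz]
    refine itD_inj hjz (d (Sum.inr j)) 2 d _ hh rfl ?_ ?_
    · have h8 : d (Sum.inr j) ≤ ∑ k : Fin c, d (Sum.inr k) :=
        Finset.single_le_sum (f := fun k : Fin c => d (Sum.inr k)) (fun _ _ => Nat.zero_le _)
          (Finset.mem_univ j)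
      omega
    · rw [itD_succ, itD_succ, itD_zero]
      exact s2
  have h10 := congrArg (coeff v1) s3
  rw [coeff_cp, if_pos hd, coeff_zero] at h10
  exact (mem_support_iff.1 hv1) h10

end Vale.Agent.P181.NSG3
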